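import Mathlib.Data.Real.Basic
import Mathlib.Data.Sym.Sym2
import Mathlib.Data.Fintype.Powerset

namespace Vale.Agent.P061

variable {V E : Type} [Fintype V] [DecidableEq V] [Fintype E]

/-- The edge copies in `F` with exactly one endpoint in `S`. -/
def cut (ends : E → Sym2 V) (S : Finset V) (F : Finset E) : Finset E :=
  F.filter fun e => (∃ a ∈ S, a ∈ ends e) ∧ ∃ b ∉ S, b ∈ ends e

/-- Every proper cut has at least `k` edge copies. -/
def IsEdgeConnected (ends : E → Sym2 V) (k : ℕ) : Prop :=
  ∀ S : Finset V, S.Nonempty → S ≠ Finset.univ → k ≤ (cut ends S Finset.univ).card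

/-- `T` has `n - 1` edge copies and connects all vertices. -/
def IsSpanningTree (ends : E → Sym2 V) (T : Finset E) : Prop :=
  T.card + 1 = Fintype.card V ∧
    ∀ S : Finset V, S.Nonempty → S ≠ Finset.univ → (cut ends S T).Nonempty

/-- `T` contains at most an `α` fraction of every proper cut. -/
def IsThin (ends : E → Sym2 V) (α : ℝ) (T : Finset E) : Prop :=
  ∀ S : Finset V, S.Nonempty → S ≠ Finset.univ →
    ((cut ends S T).card : ℝ) ≤ α * (cut ends S Finset.univ).card

/-- The strong thin tree statement with constant `C`. -/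
def StrongThinTree (C : ℝ) : Prop :=
  ∀ (k : ℕ), 1 ≤ k → ∀ (V E : Type) [Fintype V] [DecidableEq V] [Fintype E] (ends : E → Sym2 V),
    (∀ e, ¬ (ends e).IsDiag) → 2 ≤ Fintype.card V → IsEdgeConnected ends k →
      ∃ T : Finset E, IsSpanningTree ends T ∧ IsThin ends (C / k) T

end Vale.Agent.P061
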