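import Vale.Agent.P061.Defs
import Mathlib.LinearAlgebra.FiniteDimensional.Lemmas
import Mathlib.Algebra.Field.ZMod
import Mathlib.LinearAlgebra.Dimension.Constructions
import Mathlib.Tactic.LinearCombination
import Mathlib.Tactic.Positivity
import Mathlib.Algebra.Order.Floor.Ring
import Mathlib.Data.Real.Archimedean

namespace Vale.Agent.P061

/-- The value of `f a + f b` on an unordered pair. -/
def endSum {V : Type} (f : V → ZMod 2) : Sym2 V → ZMod 2 :=
  Sym2.lift ⟨fun a b => f a + f b, fun a b => add_comm _ _⟩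

theorem zmod2_cases (x : ZMod 2) : x = 0 ∨ x = 1 := by
  revert x
  decide

theorem one_add_one_ne : (1 : ZMod 2) + 1 ≠ 1 := by decide

theorem exists_all_crossing {V E : Type} [Fintype V] [DecidableEq V] [Fintype E]
    (ends : E → Sym2 V) (T : Finset E) (hT : IsSpanningTree ends T) (hV : 2 ≤ Fintype.card V) :
    ∃ S : Finset V, S.Nonempty ∧ S ≠ Finset.univ ∧ cut ends S T = T := by
  classical
  haveI : Fact (Nat.Prime 2) := ⟨Nat.prime_two⟩
  let A : (V → ZMod 2) →ₗ[ZMod 2] (T → ZMod 2) :=
    { toFun := fun f e => endSum f (ends e.1)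
      map_add' := fun f g => by
        funext e
        simp only [Pi.add_apply]
        induction ends e.1 using Sym2.ind with
        | h a b => simp only [endSum, Sym2.lift_mk, Pi.add_apply]; abel
      map_smul' := fun c f => by
        funext e
        simp only [Pi.smul_apply, RingHom.id_apply, smul_eq_mul]
        induction ends e.1 using Sym2.ind with
        | h a b => simp only [endSum, Sym2.lift_mk, Pi.smul_apply, smul_eq_mul, mul_add] }
  have hA : ∀ f (e : T), A f e = endSum f (ends e.1) := fun _ _ => rfl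
  have hcross : ∀ (f : V → ZMod 2) (e : E), e ∈ T → endSum f (ends e) = 1 →
      e ∈ cut ends (Finset.univ.filter fun v => f v = 1) T := by
    intro f e he h
    simp only [cut, Finset.mem_filter, Finset.mem_univ, true_and]
    refine ⟨he, ?_⟩
    revert h
    induction ends e using Sym2.ind with
    | h a b =>
      intro h
      simp only [endSum, Sym2.lift_mk] at h
      rcases zmod2_cases (f a) with ha | ha <;> rcases zmod2_cases (f b) with hb | hb
      · simp [ha, hb] at h
      · exact ⟨⟨b, hb, by simp⟩, a, by simp [ha], by simp⟩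
      · exact ⟨⟨a, ha, by simp⟩, b, by simp [hb], by simp⟩
      · rw [ha, hb] at h
        exact absurd h one_add_one_ne
  have hker : LinearMap.ker A ≤ Submodule.span (ZMod 2) {(fun _ : V => (1 : ZMod 2))} := by
    intro f hf
    rw [LinearMap.mem_ker] at hf
    rw [Submodule.mem_span_singleton]
    set S := Finset.univ.filter fun v => f v = 1 with hS
    by_cases hne : S.Nonempty ∧ S ≠ Finset.univ
    · exfalso
      obtain ⟨e, he⟩ := hT.2 S hne.1 hne.2
      simp only [cut, Finset.mem_filter, hS, Finset.mem_univ, true_and] at he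
      obtain ⟨heT, ⟨a, ha, hae⟩, b, hb, hbe⟩ := he
      have hab : a ≠ b := fun h => hb (h ▸ ha)
      have he' : ends e = s(a, b) := (Sym2.mem_and_mem_iff hab).mp ⟨hae, hbe⟩
      have := congrFun hf ⟨e, heT⟩
      rw [hA, he'] at this
      simp only [endSum, Sym2.lift_mk, ha, Pi.zero_apply] at this
      rcases zmod2_cases (f b) with h0 | h0
      · simp [h0] at this
      · exact hb h0
    · rw [not_and_or, not_not, Finset.not_nonempty_iff_eq_empty] at hne
      rcases hne with h | h
      · refine ⟨0, funext fun v => ?_⟩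
        have : v ∉ S := by simp [h]
        rcases zmod2_cases (f v) with h0 | h0
        · simp [h0]
        · exact absurd (by simp [hS, h0]) this
      · refine ⟨1, funext fun v => ?_⟩
        have : v ∈ S := by simp [h]
        simp only [hS, Finset.mem_filter] at this
        simp [this.2]
  have hk1 : Module.finrank (ZMod 2) (LinearMap.ker A) ≤ 1 :=
    (Submodule.finrank_mono hker).trans ((finrank_span_le_card _).trans (by simp))
  have hrk := LinearMap.finrank_range_add_finrank_ker A
  rw [Module.finrank_fintype_fun_eq_card, ← hT.1] at hrk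
  have htop : LinearMap.range A = ⊤ := by
    apply Submodule.eq_top_of_finrank_eq
    have := Submodule.finrank_le (LinearMap.range A)
    simp only [Module.finrank_fintype_fun_eq_card, Fintype.card_coe] at this ⊢
    omega
  obtain ⟨f, hf⟩ := LinearMap.range_eq_top.mp htop (fun _ => 1)
  set S := Finset.univ.filter fun v => f v = 1
  have hall : cut ends S T = T := by
    refine Finset.Subset.antisymm (Finset.filter_subset _ _) fun e he => ?_
    exact hcross f e he (by rw [← hA f ⟨e, he⟩, hf])
  obtain ⟨e, he⟩ : T.Nonempty := by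
    rw [← Finset.card_pos]
    have := hT.1
    omega
  rw [← hall] at he
  simp only [cut, Finset.mem_filter] at he
  obtain ⟨-, ⟨a, ha, -⟩, b, hb, -⟩ := he
  exact ⟨S, ⟨a, ha⟩, fun h => hb (h ▸ Finset.mem_univ b), hall⟩

/-- Edges of the complete graph on `Fin n`. -/
abbrev KEdge (n : ℕ) : Type := {p : Fin n × Fin n // p.1 < p.2}

/-- Endpoints of an edge of the complete graph. -/
def kEnds (n : ℕ) (e : KEdge n) : Sym2 (Fin n) := s(e.1.1, e.1.2)

theorem card_cut_complete (n : ℕ) (S : Finset (Fin n)) :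
    (cut (kEnds n) S Finset.univ).card = S.card * Sᶜ.card := by
  have hmem : ∀ e, ((∃ a ∈ S, a ∈ kEnds n e) ∧ ∃ b ∉ S, b ∈ kEnds n e) →
      e ∈ cut (kEnds n) S Finset.univ := fun e he => by
    simp only [cut, Finset.mem_filter, Finset.mem_univ, true_and]
    exact he
  rw [← Finset.card_product]
  refine Finset.card_bij (fun e _ => if e.1.1 ∈ S then (e.1.1, e.1.2) else (e.1.2, e.1.1))
    ?_ ?_ ?_
  · intro e he
    simp only [cut, kEnds, Finset.mem_filter, Finset.mem_univ, true_and, Sym2.mem_iff] at he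
    obtain ⟨⟨a, ha, ha'⟩, b, hb, hb'⟩ := he
    simp only [Finset.mem_product, Finset.mem_compl]
    rcases ha' with rfl | rfl <;> rcases hb' with rfl | rfl
    · exact absurd ha hb
    · simp [ha, hb]
    · simp [ha, hb]
    · exact absurd ha hb
  · intro e _ e' _ h
    obtain ⟨⟨a, b⟩, hab⟩ := e
    obtain ⟨⟨a', b'⟩, hab'⟩ := e'
    dsimp only at h hab hab'
    split_ifs at h <;> simp only [Prod.mk.injEq] at h <;> obtain ⟨rfl, rfl⟩ := h
    · rfl
    · exact absurd (hab.trans hab') (lt_irrefl _)
    · exact absurd (hab.trans hab') (lt_irrefl _)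
    · rfl
  · rintro ⟨a, b⟩ h
    simp only [Finset.mem_product, Finset.mem_compl] at h
    rcases lt_or_gt_of_ne (show a ≠ b from fun e => h.2 (e ▸ h.1)) with hl | hl
    · refine ⟨⟨(a, b), hl⟩, ?_, by simp [h.1]⟩
      exact hmem _ ⟨⟨a, h.1, by simp [kEnds]⟩, b, h.2, by simp [kEnds]⟩
    · refine ⟨⟨(b, a), hl⟩, ?_, by simp [h.2]⟩
      exact hmem _ ⟨⟨a, h.1, by simp [kEnds]⟩, b, h.2, by simp [kEnds]⟩

theorem complete_thin_bound (k : ℕ) (hk : 1 ≤ k) (C : ℝ) (h : StrongThinTree C) :
    4 * (k : ℝ) ^ 2 ≤ C * ((k : ℝ) + 1) ^ 2 := by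
  have hloop : ∀ e, ¬ (kEnds (k + 1) e).IsDiag := fun e => by
    simpa [kEnds, Sym2.mk_isDiag_iff] using ne_of_lt e.2
  have hconn : IsEdgeConnected (kEnds (k + 1)) k := by
    intro S hS hS'
    rw [card_cut_complete]
    have h1 := hS.card_pos
    have h2 : 0 < Sᶜ.card := by
      rw [Finset.card_pos, Finset.nonempty_iff_ne_empty, ne_eq, Finset.compl_eq_empty_iff]
      exact hS'
    have h3 := Finset.card_add_card_compl S
    rw [Fintype.card_fin] at h3
    obtain ⟨a, ha⟩ : ∃ a, S.card = a + 1 := ⟨_, (Nat.succ_pred_eq_of_pos h1).symm⟩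
    obtain ⟨b, hb⟩ : ∃ b, Sᶜ.card = b + 1 := ⟨_, (Nat.succ_pred_eq_of_pos h2).symm⟩
    rw [ha, hb] at h3 ⊢
    calc k = a + b + 1 := by omega
      _ ≤ (a + 1) * (b + 1) := by simp only [add_mul, mul_add, one_mul, mul_one]; omega
  obtain ⟨T, hT, hthin⟩ := h k hk (Fin (k + 1)) (KEdge (k + 1)) (kEnds (k + 1)) hloop
    (by simp; omega) hconn
  obtain ⟨S, hS, hS', hall⟩ := exists_all_crossing _ T hT (by simp; omega)
  have hcard : T.card = k := by
    have := hT.1
    simp at this
    omega
  have hb := hthin S hS hS'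
  rw [hall, card_cut_complete, hcard] at hb
  push_cast at hb
  have hsum : (S.card : ℝ) + (Sᶜ.card : ℝ) = (k : ℝ) + 1 := by
    have := Finset.card_add_card_compl S
    rw [Fintype.card_fin] at this
    exact_mod_cast this
  have hk0 : (0 : ℝ) < k := by exact_mod_cast hk
  rw [div_mul_eq_mul_div, le_div_iff₀ hk0] at hb
  have hamgm : 4 * ((S.card : ℝ) * (Sᶜ.card : ℝ)) ≤ ((k : ℝ) + 1) ^ 2 := by
    rw [← hsum]
    nlinarith [sq_nonneg ((S.card : ℝ) - (Sᶜ.card : ℝ))]
  have hC : 0 ≤ C := by
    by_contra hc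
    nlinarith [mul_nonneg (Nat.cast_nonneg (α := ℝ) S.card) (Nat.cast_nonneg (α := ℝ) Sᶜ.card)]
  nlinarith [mul_le_mul_of_nonneg_left hamgm hC]

theorem four_le (C : ℝ) (h : StrongThinTree C) : 4 ≤ C := by
  by_contra hc
  rw [not_le] at hc
  obtain ⟨m, hm⟩ := exists_nat_gt (12 / (4 - C))
  rw [div_lt_iff₀ (by linarith)] at hm
  have := complete_thin_bound (m + 1) (by omega) C h
  push_cast at this
  have hm0 : (0 : ℝ) ≤ m := Nat.cast_nonneg m
  nlinarith [mul_le_mul_of_nonneg_right hm.le (show (0 : ℝ) ≤ (m : ℝ) + 1 by linarith)]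

end Vale.Agent.P061
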